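import Vale.Agent.P106.R.H540.Geo
import Vale.Agent.P127.U.PLa

/-!
# P106 / R : the digits of the normal position (port of P122/H540/PNu, helper540; port helper679)

`hc_le_ev` : counting bound with a bad event.
`p_step` : given the next tube, the normal position `p` of the tube of level `i` in the frame `θ`
(precision of level `i + u`), and data `Z` which fix the time block and `θ`, the normal position of the
tube of level `c ≥ i + u` inside its piece in the frame `φ` has `O(1)` values, off the event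
`B 2^-n < |sin (φ - θ)|`.
-/

set_option autoImplicit false

namespace Vale.Agent.P106.R.H540

open Vale.Agent.P106.R.C2 Vale.Agent.P127 Vale.Agent.P127.Stk

section fin

variable {Ω : Type} [Fintype Ω] {α β γ ζ : Type*} (P : Law Ω)

/-- counting bound with a bad event (the number of values depends only on the condition) -/
theorem hc_le_ev (X : Ω → α) (Y : Ω → β) (E : Ω → Prop) (N1 N2 : ℕ)
    (h : ∀ ω, 0 < P.w ω → ∃ F : Finset α, (E ω → F.card ≤ N1) ∧ (¬ E ω → F.card ≤ N2) ∧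
      ∀ ω', 0 < P.w ω' → Y ω' = Y ω → X ω' ∈ F) :
    hc P X Y ≤ Real.log N2 + prE P E * Real.log N1 := by
  classical
  have hl2 : 0 ≤ Real.log N2 := Real.log_natCast_nonneg N2
  have hl1 : 0 ≤ Real.log N1 := Real.log_natCast_nonneg N1
  have h1 := U.PL.hc_le_exlog P X Y (fun ω => if E ω then N1 else N2) (by
    intro ω hω
    obtain ⟨F, f1, f2, f3⟩ := h ω hω
    refine ⟨F, ?_, f3⟩
    by_cases hE : E ω
    · simpa [hE] using f1 hE
    · simpa [hE] using f2 hE)
  refine h1.trans ?_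
  have h2 : P.ex (fun ω => Real.log (((if E ω then N1 else N2 : ℕ) : ℝ))) ≤
      P.ex (fun ω => Real.log N2 + Real.log N1 * (if E ω then 1 else 0)) := by
    refine P.ex_mono fun ω _ => ?_
    by_cases hE : E ω
    · simp only [hE, if_true]
      linarith
    · simp only [hE, if_false]
      linarith
  refine h2.trans (le_of_eq ?_)
  rw [P.ex_add, P.ex_const, P.ex_const_mul]
  have : P.ex (fun ω => if E ω then (1:ℝ) else 0) = prE P E := by
    unfold Law.ex prE
    rw [Finset.sum_filter]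
    refine Finset.sum_congr rfl fun ω _ => ?_
    by_cases hE : E ω <;> simp [hE]
  rw [this]
  ring

end fin

/-! ### frames -/

theorem fn_sub (θ : ℝ) (v w : Fin 2 → ℝ) : fn θ (fun k => v k - w k) = fn θ v - fn θ w := by
  unfold fn
  ring

theorem abs_fn_le (θ : ℝ) (v : Fin 2 → ℝ) : |fn θ v| ≤ |v 0| + |v 1| := by
  unfold fn
  refine (abs_add_le _ _).trans ?_
  rw [abs_mul, abs_mul, abs_neg]
  have h1 := Real.abs_sin_le_one θ
  have h2 := Real.abs_cos_le_one θ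
  nlinarith [abs_nonneg (v 0), abs_nonneg (v 1)]

theorem abs_fw_le (θ : ℝ) (v : Fin 2 → ℝ) : |fw θ v| ≤ |v 0| + |v 1| := by
  unfold fw
  refine (abs_add_le _ _).trans ?_
  rw [abs_mul, abs_mul]
  have h1 := Real.abs_sin_le_one θ
  have h2 := Real.abs_cos_le_one θ
  nlinarith [abs_nonneg (v 0), abs_nonneg (v 1)]

theorem fn_eq (θ φ : ℝ) (v : Fin 2 → ℝ) :
    fn φ v = Real.cos (φ - θ) * fn θ v - Real.sin (φ - θ) * fw θ v := by
  have h1 : φ = θ + (φ - θ) := by ring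
  unfold fn fw
  conv_lhs => rw [h1, Real.sin_add, Real.cos_add]
  ring

/-- change of the frame -/
theorem fn_frame (θ φ : ℝ) (v : Fin 2 → ℝ) :
    |fn φ v| ≤ |fn θ v| + |Real.sin (φ - θ)| * (|v 0| + |v 1|) := by
  rw [fn_eq θ φ v]
  refine (abs_sub _ _).trans ?_
  rw [abs_mul, abs_mul]
  have h1 := Real.abs_cos_le_one (φ - θ)
  have h2 := abs_fw_le θ v
  have h3 := abs_nonneg (fn θ v)
  have h4 := abs_nonneg (Real.sin (φ - θ))
  nlinarith [mul_le_mul_of_nonneg_left h2 h4]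

/-- floors of close numbers -/
theorem floor_mem {x y : ℝ} {m : ℕ} (h : |x - y| ≤ m) :
    ⌊x⌋ ∈ Finset.Icc (⌊y⌋ - ((m : ℤ) + 1)) (⌊y⌋ + ((m : ℤ) + 1)) := by
  rw [abs_le] at h
  rw [Finset.mem_Icc]
  constructor
  · rw [sub_le_iff_le_add]
    have : ⌊y⌋ ≤ ⌊x + ((m : ℤ) + 1 : ℤ)⌋ := Int.floor_le_floor (by push_cast; linarith)
    rwa [Int.floor_add_intCast] at this
  · have : ⌊x⌋ ≤ ⌊y + ((m : ℤ) + 1 : ℤ)⌋ := Int.floor_le_floor (by push_cast; linarith)
    rwa [Int.floor_add_intCast] at this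

theorem card_win (z : ℤ) (m : ℕ) :
    (Finset.Icc (z - ((m : ℤ) + 1)) (z + ((m : ℤ) + 1))).card = 2 * m + 3 := by
  rw [Int.card_Icc]
  omega

/-- the real vector of the offsets -/
noncomputable def ov (S : Nd) : Fin 2 → ℝ := fun k => (S.o k : ℝ)

/-- the normal position in units `2^(u n)` of the tube -/
noncomputable def pdg (n u : ℕ) (θ : ℝ) (S : Nd) : ℤ := ⌊fn θ (ov S) / 2 ^ (u * n)⌋

/-- the normal position in units of the tube -/
noncomputable def ndg (φ : ℝ) (S : Nd) : ℤ := ⌊fn φ (ov S)⌋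

section step

variable {C : ℝ} {n K : ℕ} {s : Sl} {N N' : ℕ → Nd}

/-- differences of the offsets of two tubes of level `c ≥ i + u` -/
theorem ov_sub_le (h : Pth n K s N) (h' : Pth n K s N') (hs : Slp C n K s) (hC : 0 ≤ C) (hn : 1 ≤ n)
    {i u c : ℕ} (hic : i + u ≤ c) (hc : c < K) {θ : ℝ} (hT : (N i).T = (N' i).T)
    (hN : N (c + 1) = N' (c + 1)) (hp : pdg n u θ (N i) = pdg n u θ (N' i)) :
    |fn θ (fun k => ov (N c) k - ov (N' c) k)| ≤ 17 + 8 * C ∧
      ∀ k, |ov (N c) k - ov (N' c) k| ≤ 2 ^ n := by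
  have hTc : (N c).T = (N' c).T := by
    rw [h.T_le (by omega : i ≤ c) (by omega), h'.T_le (by omega : i ≤ c) (by omega), hT]
  have hτ : (N c).τ = (N' c).τ := by rw [h.par c hc, h'.par c hc, hN]
  have hsg := h.sg_inj h' hc hN hTc
  have hP : (0 : ℝ) < 2 ^ (c * n) := by positivity
  constructor
  · have e1 : ∀ k, |axp s n c (N c) (tm n i (N i)) k - ((N i).o k : ℝ) * 2 ^ (i * n)| ≤
        2 * (2 + C) * 2 ^ (c * n) := fun k => h.axp_le hs hC hn (by omega) (by omega) k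
    have e2 : ∀ k, |axp s n c (N' c) (tm n i (N' i)) k - ((N' i).o k : ℝ) * 2 ^ (i * n)| ≤
        2 * (2 + C) * 2 ^ (c * n) := fun k => h'.axp_le hs hC hn (by omega) (by omega) k
    have ht : tm n i (N i) = tm n i (N' i) := by
      unfold tm
      rw [hT]
    have htc : tm n c (N c) = tm n c (N' c) := by
      unfold tm
      rw [hTc]
    have e3 : ∀ k, axp s n c (N c) (tm n i (N i)) k - axp s n c (N' c) (tm n i (N' i)) k =
        (ov (N c) k - ov (N' c) k) * 2 ^ (c * n) := by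
      intro k
      unfold axp ov
      rw [ht, htc, hτ]
      ring
    have e4 : |fn θ (ov (N i)) - fn θ (ov (N' i))| ≤ 2 ^ (u * n) := by
      have hq : (0 : ℝ) < 2 ^ (u * n) := by positivity
      have h1 : |fn θ (ov (N i)) / 2 ^ (u * n) - fn θ (ov (N' i)) / 2 ^ (u * n)| < 1 :=
        Int.abs_sub_lt_one_of_floor_eq_floor hp
      rw [← sub_div, abs_div, abs_of_pos hq, div_lt_one hq] at h1
      exact h1.le
    have e5 : fn θ (fun k => ov (N c) k - ov (N' c) k) * 2 ^ (c * n) =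
        (fn θ (ov (N i)) - fn θ (ov (N' i))) * 2 ^ (i * n) +
        fn θ (fun k => axp s n c (N c) (tm n i (N i)) k - ((N i).o k : ℝ) * 2 ^ (i * n)) -
        fn θ (fun k => axp s n c (N' c) (tm n i (N' i)) k - ((N' i).o k : ℝ) * 2 ^ (i * n)) := by
      have a0 := e3 0
      have a1 := e3 1
      unfold fn ov at *
      linear_combination (Real.sin θ) * a0 - (Real.cos θ) * a1
    have e6 : ∀ v : Fin 2 → ℝ, (∀ k, |v k| ≤ 2 * (2 + C) * 2 ^ (c * n)) →
        |fn θ v| ≤ 4 * (2 + C) * 2 ^ (c * n) := by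
      intro v hv
      have := abs_fn_le θ v
      linarith [hv 0, hv 1]
    have e7 := e6 _ e1
    have e8 := e6 _ e2
    have e9 : |fn θ (fun k => ov (N c) k - ov (N' c) k) * 2 ^ (c * n)| ≤
        2 ^ (u * n) * 2 ^ (i * n) + 8 * (2 + C) * 2 ^ (c * n) := by
      rw [e5]
      refine (abs_sub _ _).trans ?_
      have := abs_add_le ((fn θ (ov (N i)) - fn θ (ov (N' i))) * 2 ^ (i * n))
        (fn θ (fun k => axp s n c (N c) (tm n i (N i)) k - ((N i).o k : ℝ) * 2 ^ (i * n)))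
      rw [abs_mul, abs_of_pos (by positivity : (0:ℝ) < 2 ^ (i * n))] at this
      have h2 : |fn θ (ov (N i)) - fn θ (ov (N' i))| * 2 ^ (i * n) ≤ 2 ^ (u * n) * 2 ^ (i * n) :=
        mul_le_mul_of_nonneg_right e4 (by positivity)
      linarith
    have e10 : (2 : ℝ) ^ (u * n) * 2 ^ (i * n) ≤ 2 ^ (c * n) := by
      rw [← pow_add, ← Nat.add_mul]
      exact pow_le_pow_right₀ (by norm_num) (Nat.mul_le_mul_right n (by omega))
    rw [abs_mul, abs_of_pos hP] at e9
    by_contra hcon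
    push Not at hcon
    have : (17 + 8 * C) * 2 ^ (c * n) < |fn θ (fun k => ov (N c) k - ov (N' c) k)| * 2 ^ (c * n) :=
      mul_lt_mul_of_pos_right hcon hP
    nlinarith
  · intro k
    obtain ⟨a1, a2⟩ := sg_o_bd (n := n) (N c) k
    obtain ⟨b1, b2⟩ := sg_o_bd (n := n) (N' c) k
    rw [hsg] at a1 a2
    unfold ov
    rw [abs_le]
    constructor <;> linarith

variable {Ω : Type} [Fintype Ω] {ζ : Type*} (P : Law Ω)

/-- **one step of the chain of `p`** -/
theorem p_step {N : ℕ → Ω → Nd} (hN : ∀ ω, 0 < P.w ω → Pth n K s fun c => N c ω) (hs : Slp C n K s)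
    (hC : 0 ≤ C) (hn : 1 ≤ n) {i u c : ℕ} (hic : i + u ≤ c) (hcK : c < K) (Z : Ω → ζ) (θ : Ω → ℝ)
    (φ : Nd → ℝ) (hT : Fn P (fun ω => (N i ω).T) Z) (hθ : Fn P θ Z) (B : ℝ) (hB : 0 ≤ B) :
    hc P (fun ω => ndg (φ ((N c ω).sg n)) (N c ω))
        (fun ω => (N (c + 1) ω, pdg n u (θ ω) (N i ω), Z ω)) ≤
      Real.log ((2 * ⌈17 + 8 * C + 2 * B⌉₊ + 3 : ℕ) : ℝ) +
        prE P (fun ω => B / 2 ^ n < |Real.sin (φ ((N c ω).sg n) - θ ω)|) *
          Real.log ((2 * (2 * 2 ^ n) + 3 : ℕ) : ℝ) := by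
  refine hc_le_ev P _ _ _ _ _ fun ω hω => ?_
  have key : ∀ ω', 0 < P.w ω' →
      (N (c + 1) ω', pdg n u (θ ω') (N i ω'), Z ω') = (N (c + 1) ω, pdg n u (θ ω) (N i ω), Z ω) →
      (N c ω').sg n = (N c ω).sg n ∧
      |fn (θ ω) (fun k => ov (N c ω') k - ov (N c ω) k)| ≤ 17 + 8 * C ∧
      ∀ k, |ov (N c ω') k - ov (N c ω) k| ≤ 2 ^ n := by
    intro ω' hω' e
    simp only [Prod.mk.injEq] at e
    obtain ⟨e1, e2, e3⟩ := e
    have hθ' : θ ω' = θ ω := hθ ω' ω hω' hω e3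
    have hT' : (N i ω').T = (N i ω).T := hT ω' ω hω' hω e3
    rw [hθ'] at e2
    have h1 := ov_sub_le (hN ω' hω') (hN ω hω) hs hC hn hic hcK hT' e1 e2
    have hTc : (N c ω').T = (N c ω).T := by
      rw [(hN ω' hω').T_le (by omega : i ≤ c) (by omega), (hN ω hω).T_le (by omega : i ≤ c) (by omega),
        hT']
    exact ⟨(hN ω' hω').sg_inj (hN ω hω) hcK e1 hTc, h1⟩
  by_cases hE : B / 2 ^ n < |Real.sin (φ ((N c ω).sg n) - θ ω)|
  · refine ⟨Finset.Icc (ndg (φ ((N c ω).sg n)) (N c ω) - (((2 * 2 ^ n : ℕ) : ℤ) + 1))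
      (ndg (φ ((N c ω).sg n)) (N c ω) + (((2 * 2 ^ n : ℕ) : ℤ) + 1)),
      fun _ => (card_win _ _).le, fun h => absurd hE h, fun ω' hω' e => ?_⟩
    obtain ⟨k1, k2, k3⟩ := key ω' hω' e
    simp only [ndg, k1]
    refine floor_mem ?_
    rw [← fn_sub]
    refine (abs_fn_le _ _).trans ?_
    push_cast
    linarith [k3 0, k3 1]
  · refine ⟨Finset.Icc (ndg (φ ((N c ω).sg n)) (N c ω) - (((⌈17 + 8 * C + 2 * B⌉₊ : ℕ) : ℤ) + 1))
      (ndg (φ ((N c ω).sg n)) (N c ω) + (((⌈17 + 8 * C + 2 * B⌉₊ : ℕ) : ℤ) + 1)),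
      fun h => absurd h hE, fun _ => (card_win _ _).le, fun ω' hω' e => ?_⟩
    obtain ⟨k1, k2, k3⟩ := key ω' hω' e
    simp only [ndg, k1]
    refine floor_mem ?_
    rw [← fn_sub]
    refine (fn_frame (θ ω) _ _).trans ?_
    push Not at hE
    have h2 : |Real.sin (φ ((N c ω).sg n) - θ ω)| * (|ov (N c ω') 0 - ov (N c ω) 0| +
        |ov (N c ω') 1 - ov (N c ω) 1|) ≤ B / 2 ^ n * (2 ^ n + 2 ^ n) :=
      mul_le_mul hE (add_le_add (k3 0) (k3 1)) (by positivity) (by positivity)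
    have h3 : B / 2 ^ n * ((2:ℝ) ^ n + 2 ^ n) = 2 * B := by
      field_simp
      ring
    have h4 := Nat.le_ceil (17 + 8 * C + 2 * B)
    linarith

end step

end Vale.Agent.P106.R.H540
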