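import Vale.Agent.P106.R.C.Defs2

/-!
# P106 / R : geometry of the exact tree of the truncated cone (port of P122/H540/Geo, helper540; port helper371)

`Pth C n K s N` : `N 0, …, N K` is a path of the tree (nodes of levels `0, …, K`).
`axp` : position of the axis of a tube at a time.  Along a path the axes of the tubes of the levels
`i ≤ c` agree at the time of the block of level `i` up to `2 (2 + C) 2^(c n)`.
-/

set_option autoImplicit false

namespace Vale.Agent.P106.R.H540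

open Vale.Agent.P106.R.C2

/-- start of the time block -/
noncomputable def tm (n i : ℕ) (S : Nd) : ℝ := (S.T : ℝ) * 2 ^ (2 * i * n)

/-- position of the axis of the tube `S` of level `i` at the time `t` -/
noncomputable def axp (s : Sl) (n i : ℕ) (S : Nd) (t : ℝ) (k : Fin 2) : ℝ :=
  (S.o k : ℝ) * 2 ^ (i * n) + (t - tm n i S) * s i S.τ k

/-- a path of the tree -/
structure Pth (n K : ℕ) (s : Sl) (N : ℕ → Nd) : Prop where
  step : ∀ i, i < K → N (i + 1) = ((N i).sg n).ch s n i (N (i + 1)).τ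
  par : ∀ i, i < K → (N i).τ = par n (N (i + 1)).τ
  cap : ∀ i, i ≤ K → Cap n i (N i).τ

variable {C : ℝ} {n K : ℕ} {s : Sl} {N N' : ℕ → Nd}

theorem Pth.T_succ (h : Pth n K s N) {i : ℕ} (hi : i < K) : (N (i + 1)).T = (N i).T / 2 ^ (2 * n) := by
  rw [h.step i hi]
  rfl

theorem Pth.T_le (h : Pth n K s N) {i c : ℕ} (hic : i ≤ c) (hc : c ≤ K) :
    (N c).T = (N i).T / 2 ^ (2 * n * (c - i)) := by
  induction c, hic using Nat.le_induction with
  | base => simp
  | succ c hic ih =>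
    rw [h.T_succ (by omega), ih (by omega), Int.ediv_ediv_of_nonneg (by positivity), ← pow_add]
    congr 2
    obtain ⟨d, rfl⟩ := Nat.exists_eq_add_of_le hic
    rw [Nat.add_sub_cancel_left, Nat.add_assoc, Nat.add_sub_cancel_left]
    ring

/-- times: `t_c ≤ t_i ≤ t_c + 2^(2 c n)` -/
theorem Pth.tm_le (h : Pth n K s N) {i c : ℕ} (hic : i ≤ c) (hc : c ≤ K) :
    tm n c (N c) ≤ tm n i (N i) ∧ tm n i (N i) ≤ tm n c (N c) + 2 ^ (2 * c * n) := by
  have h1 := h.T_le hic hc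
  set D : ℤ := 2 ^ (2 * n * (c - i)) with hD
  have hDp : 0 < D := by positivity
  have h2 : (N c).T * D ≤ (N i).T := by
    rw [h1]
    exact Int.ediv_mul_le _ hDp.ne'
  have h3 : (N i).T < (N c).T * D + D := by
    rw [h1]
    have := Int.lt_ediv_add_one_mul_self (N i).T hDp
    linarith
  have e1 : (2 : ℝ) ^ (2 * c * n) = (D : ℝ) * 2 ^ (2 * i * n) := by
    rw [hD]
    push_cast
    rw [← pow_add]
    congr 1
    obtain ⟨d, rfl⟩ := Nat.exists_eq_add_of_le hic
    rw [Nat.add_sub_cancel_left]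
    ring
  have h2' : ((N c).T : ℝ) * D ≤ (N i).T := by exact_mod_cast h2
  have h3' : ((N i).T : ℝ) ≤ (N c).T * D + D := by exact_mod_cast h3.le
  have hp : (0 : ℝ) < 2 ^ (2 * i * n) := by positivity
  unfold tm
  rw [e1]
  constructor
  · nlinarith
  · nlinarith

theorem sg_o_bd (S : Nd) (k : Fin 2) :
    ((S.sg n).o k : ℝ) * 2 ^ n ≤ S.o k ∧ (S.o k : ℝ) ≤ ((S.sg n).o k : ℝ) * 2 ^ n + 2 ^ n := by
  have hDp : (0 : ℤ) < 2 ^ n := by positivity
  have h1 : (S.o k / 2 ^ n) * 2 ^ n ≤ S.o k := Int.ediv_mul_le _ hDp.ne'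
  have h2 : S.o k < (S.o k / 2 ^ n) * 2 ^ n + 2 ^ n := by
    have := Int.lt_ediv_add_one_mul_self (S.o k) hDp
    linarith
  have h1' : (((S.o k / 2 ^ n : ℤ) * 2 ^ n : ℤ) : ℝ) ≤ S.o k := by exact_mod_cast h1
  have h2' : ((S.o k : ℤ) : ℝ) ≤ (((S.o k / 2 ^ n : ℤ) * 2 ^ n + 2 ^ n : ℤ) : ℝ) := by
    exact_mod_cast h2.le
  push_cast at h1' h2'
  exact ⟨h1', h2'⟩

/-- one step: the axes agree at the time of the fine block -/
theorem axp_step (S : Nd) (τ' : Z2) (i : ℕ) (k : Fin 2) :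
    |axp s n (i + 1) ((S.sg n).ch s n i τ') (tm n i S) k - axp s n i S (tm n i S) k| ≤
      2 * 2 ^ ((i + 1) * n) := by
  obtain ⟨h1, h2⟩ := sg_o_bd (n := n) S k
  have hp : (0 : ℝ) < 2 ^ (i * n) := by positivity
  have hq : (0 : ℝ) < 2 ^ ((i + 1) * n) := by positivity
  have e0 : (2 : ℝ) ^ ((i + 1) * n) = 2 ^ n * 2 ^ (i * n) := by
    rw [← pow_add]
    congr 1
    ring
  have e1 : (2 : ℝ) ^ (2 * (i + 1) * n) = 2 ^ (2 * n) * 2 ^ (2 * i * n) := by
    rw [← pow_add]
    congr 1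
    ring
  have e2 : tm n i S - tm n (i + 1) ((S.sg n).ch s n i τ') =
      ((S.T % 2 ^ (2 * n) : ℤ) : ℝ) * 2 ^ (2 * i * n) := by
    have : S.T = 2 ^ (2 * n) * (S.T / 2 ^ (2 * n)) + S.T % 2 ^ (2 * n) :=
      (Int.mul_ediv_add_emod _ _).symm
    have h3 : (S.T : ℝ) = 2 ^ (2 * n) * ((S.T / 2 ^ (2 * n) : ℤ) : ℝ) + ((S.T % 2 ^ (2 * n) : ℤ) : ℝ) := by
      exact_mod_cast this
    have h4 : ((S.sg n).ch s n i τ').T = S.T / 2 ^ (2 * n) := rfl
    unfold tm
    rw [h4, e1]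
    linear_combination (2 : ℝ) ^ (2 * i * n) * h3
  set y : ℝ := ((S.T % 2 ^ (2 * n) : ℤ) : ℝ) * 2 ^ (2 * i * n) * s (i + 1) τ' k / 2 ^ ((i + 1) * n)
    with hy
  have e3 : ((((S.sg n).ch s n i τ').o k : ℤ) : ℝ) = (⌊((S.sg n).o k : ℝ) - y⌋ : ℤ) := rfl
  have f1 := Int.floor_le (((S.sg n).o k : ℝ) - y)
  have f2 := Int.lt_floor_add_one (((S.sg n).o k : ℝ) - y)
  have e4 : ((S.T % 2 ^ (2 * n) : ℤ) : ℝ) * 2 ^ (2 * i * n) * s (i + 1) τ' k = y * 2 ^ ((i + 1) * n) := by
    rw [hy]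
    field_simp
  have e5 : axp s n (i + 1) ((S.sg n).ch s n i τ') (tm n i S) k - axp s n i S (tm n i S) k =
      ((⌊((S.sg n).o k : ℝ) - y⌋ : ℤ) + y) * 2 ^ ((i + 1) * n) - (S.o k : ℝ) * 2 ^ (i * n) := by
    unfold axp
    rw [e2, e3]
    have : ((S.sg n).ch s n i τ').τ = τ' := rfl
    rw [this]
    linear_combination e4
  rw [e5, abs_le]
  set F : ℝ := ((⌊((S.sg n).o k : ℝ) - y⌋ : ℤ) : ℝ)
  have g1 : F + y ≤ ((S.sg n).o k : ℝ) := by linarith
  have g2 : ((S.sg n).o k : ℝ) - 1 ≤ F + y := by linarith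
  have g3 : (F + y) * 2 ^ ((i + 1) * n) ≤ ((S.sg n).o k : ℝ) * 2 ^ ((i + 1) * n) :=
    mul_le_mul_of_nonneg_right g1 hq.le
  have g4 : (((S.sg n).o k : ℝ) - 1) * 2 ^ ((i + 1) * n) ≤ (F + y) * 2 ^ ((i + 1) * n) :=
    mul_le_mul_of_nonneg_right g2 hq.le
  have g5 : (S.o k : ℝ) * 2 ^ (i * n) ≤ (((S.sg n).o k : ℝ) * 2 ^ n + 2 ^ n) * 2 ^ (i * n) :=
    mul_le_mul_of_nonneg_right h2 hp.le
  have g6 : (((S.sg n).o k : ℝ) * 2 ^ n) * 2 ^ (i * n) ≤ (S.o k : ℝ) * 2 ^ (i * n) :=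
    mul_le_mul_of_nonneg_right h1 hp.le
  rw [e0] at *
  constructor
  · nlinarith
  · nlinarith

/-- axes along a path -/
theorem Pth.axp_le (h : Pth n K s N) (hs : Slp C n K s) (hC : 0 ≤ C) (hn : 1 ≤ n) {i c : ℕ}
    (hic : i ≤ c) (hc : c ≤ K) (k : Fin 2) :
    |axp s n c (N c) (tm n i (N i)) k - ((N i).o k : ℝ) * 2 ^ (i * n)| ≤ 2 * (2 + C) * 2 ^ (c * n) := by
  induction c, hic using Nat.le_induction with
  | base =>
    have : axp s n i (N i) (tm n i (N i)) k - ((N i).o k : ℝ) * 2 ^ (i * n) = 0 := by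
      unfold axp
      ring
    rw [this, abs_zero]
    positivity
  | succ c hic ih =>
    have ih := ih (by omega)
    have h1 := axp_step (s := s) (n := n) (N c) (N (c + 1)).τ c k
    rw [← h.step c (by omega)] at h1
    have h2 : |s (c + 1) (N (c + 1)).τ k - s c (N c).τ k| ≤ C / 2 ^ (c * n) := by
      have := hs.nest c (N (c + 1)).τ k (by omega) (h.cap (c + 1) hc)
      rwa [← h.par c (by omega)] at this
    have h3 := h.tm_le hic (by omega : c ≤ K)
    have h4 : |tm n i (N i) - tm n c (N c)| ≤ 2 ^ (2 * c * n) := by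
      rw [abs_le]
      constructor <;> linarith [h3.1, h3.2, (by positivity : (0:ℝ) < 2 ^ (2 * c * n))]
    have e1 : axp s n (c + 1) (N (c + 1)) (tm n i (N i)) k - axp s n c (N c) (tm n i (N i)) k =
        (axp s n (c + 1) (N (c + 1)) (tm n c (N c)) k - axp s n c (N c) (tm n c (N c)) k) +
        (tm n i (N i) - tm n c (N c)) * (s (c + 1) (N (c + 1)).τ k - s c (N c).τ k) := by
      unfold axp
      ring
    have h5 : |(tm n i (N i) - tm n c (N c)) * (s (c + 1) (N (c + 1)).τ k - s c (N c).τ k)| ≤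
        C * 2 ^ (c * n) := by
      rw [abs_mul]
      calc _ ≤ 2 ^ (2 * c * n) * (C / 2 ^ (c * n)) :=
            mul_le_mul h4 h2 (abs_nonneg _) (by positivity)
        _ = C * 2 ^ (c * n) := by
            have : (2 : ℝ) ^ (2 * c * n) = 2 ^ (c * n) * 2 ^ (c * n) := by
              rw [← pow_add]
              congr 1
              ring
            rw [this]
            field_simp
    have h6 : |axp s n (c + 1) (N (c + 1)) (tm n i (N i)) k - ((N i).o k : ℝ) * 2 ^ (i * n)| ≤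
        2 * 2 ^ ((c + 1) * n) + C * 2 ^ (c * n) + 2 * (2 + C) * 2 ^ (c * n) := by
      have e2 : axp s n (c + 1) (N (c + 1)) (tm n i (N i)) k - ((N i).o k : ℝ) * 2 ^ (i * n) =
        (axp s n (c + 1) (N (c + 1)) (tm n c (N c)) k - axp s n c (N c) (tm n c (N c)) k) +
        (tm n i (N i) - tm n c (N c)) * (s (c + 1) (N (c + 1)).τ k - s c (N c).τ k) +
        (axp s n c (N c) (tm n i (N i)) k - ((N i).o k : ℝ) * 2 ^ (i * n)) := by
        linear_combination e1
      rw [e2]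
      refine (abs_add_le _ _).trans (add_le_add ((abs_add_le _ _).trans (add_le_add h1 h5)) ih)
    have h7 : (2 : ℝ) * 2 ^ (c * n) ≤ 2 ^ ((c + 1) * n) := by
      have : (2 : ℝ) ^ ((c + 1) * n) = 2 ^ n * 2 ^ (c * n) := by
        rw [← pow_add]
        congr 1
        ring
      rw [this]
      have h8 : (2 : ℝ) ≤ 2 ^ n := by
        calc (2:ℝ) = 2 ^ 1 := by norm_num
          _ ≤ 2 ^ n := pow_le_pow_right₀ (by norm_num) hn
      exact mul_le_mul_of_nonneg_right h8 (by positivity)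
    have h9 : (0 : ℝ) < 2 ^ (c * n) := by positivity
    nlinarith

/-- the piece is a function of the next tube and of the time block -/
theorem Pth.sg_inj (h : Pth n K s N) (h' : Pth n K s N') {c : ℕ} (hc : c < K)
    (e1 : N (c + 1) = N' (c + 1)) (e2 : (N c).T = (N' c).T) : (N c).sg n = (N' c).sg n := by
  have hτ : (N c).τ = (N' c).τ := by rw [h.par c hc, h'.par c hc, e1]
  have s1 := h.step c hc
  have s2 := h'.step c hc
  rw [e1] at s1
  ext k
  · change (N c).τ k = (N' c).τ k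
    rw [hτ]
  · have a1 := congrFun (congrArg Nd.o s1) k
    have a2 := congrFun (congrArg Nd.o s2) k
    rw [a1] at a2
    simp only [Nd.ch] at a2
    have hT : ((N c).sg n).T = ((N' c).sg n).T := e2
    rw [hT] at a2
    rw [show ∀ (m : ℤ) (y : ℝ), ⌊(m : ℝ) - y⌋ = m + ⌊-y⌋ from fun m y => by
      rw [sub_eq_add_neg, Int.floor_intCast_add]] at a2
    rw [show ∀ (m : ℤ) (y : ℝ), ⌊(m : ℝ) - y⌋ = m + ⌊-y⌋ from fun m y => by
      rw [sub_eq_add_neg, Int.floor_intCast_add]] at a2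
    simpa using a2
  · exact e2
  · have hT : ((N c).sg n).T = ((N' c).sg n).T := e2
    have ho : ((N c).sg n).o = ((N' c).sg n).o := by
      funext k
      have a1 := congrFun (congrArg Nd.o s1) k
      have a2 := congrFun (congrArg Nd.o s2) k
      rw [a1] at a2
      simp only [Nd.ch] at a2
      rw [hT] at a2
      rw [show ∀ (m : ℤ) (y : ℝ), ⌊(m : ℝ) - y⌋ = m + ⌊-y⌋ from fun m y => by
        rw [sub_eq_add_neg, Int.floor_intCast_add]] at a2
      rw [show ∀ (m : ℤ) (y : ℝ), ⌊(m : ℝ) - y⌋ = m + ⌊-y⌋ from fun m y => by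
        rw [sub_eq_add_neg, Int.floor_intCast_add]] at a2
      simpa using a2
    have hτ' : ((N c).sg n).τ = ((N' c).sg n).τ := hτ
    have a1 := congrArg Nd.w s1
    have a2 := congrArg Nd.w s2
    rw [a1] at a2
    simp only [Nd.ch] at a2
    rw [hT, ho, hτ'] at a2
    have : ((N c).sg n).w = ((N' c).sg n).w := by linarith
    exact this

/-- caps of coarser levels are functions of the cap -/
theorem Pth.τ_inj (h : Pth n K s N) (h' : Pth n K s N') {c j : ℕ} (hcj : c ≤ j) (hj : j ≤ K)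
    (e : (N j).τ = (N' j).τ) : (N c).τ = (N' c).τ := by
  induction j, hcj using Nat.le_induction with
  | base => exact e
  | succ j hcj ih =>
    refine ih (by omega) ?_
    rw [h.par j (by omega), h'.par j (by omega), e]

/-- the nodes are functions of the cell and of the cap -/
theorem Pth.node_inj (h : Pth n K s N) (h' : Pth n K s N') {c : ℕ} (hc : c ≤ K)
    (e0 : N 0 = N' 0) (e : (N c).τ = (N' c).τ) : N c = N' c := by
  induction c with
  | zero => exact e0
  | succ c ih =>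
    have := ih (by omega) (by rw [h.par c (by omega), h'.par c (by omega), e])
    rw [h.step c (by omega), h'.step c (by omega), this, e]

end Vale.Agent.P106.R.H540
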